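import Vale.Agent.P365.V4.State548
import Vale.Agent.P365.H763.Cmp
import Vale.Agent.P365.T2.H211.Psi

/-!
# P365-T2, X-KJSTAR, part a (helper908)

`st D j` = profile at the beginning of the stage `j` of `V4`.
`th D j = ∏ k < j, t k`;  `th D j * st D 0 ≤ st D j ≤ st D 0`.
`En_st_le` : energies at the beginning of the stage `j` against the energies at START, pathwise.
`AvG_st_le` : comparison of the averages of a nondecreasing function of an energy.
-/

set_option linter.all false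

namespace P365T2.H908

open P365L P365O P365T1 P365L.TL Matrix Complex MeasureTheory Filter Topology Set
open Vale.Agent.P365.J376
open scoped ComplexConjugate ENNReal

section gen

variable {ι : Type*} [Fintype ι] [DecidableEq ι] {A : Matrix ι ι ℝ}
  {Λ : Type*} [Fintype Λ] {p : Λ → ℝ} {ν : Λ → Measure ℝ} {E : ℝ}
  {κ : Type*} [Fintype κ] {f : κ → ι → ℝ}

/-- weighted energy of a finite family -/
noncomputable def EnC (A : Matrix ι ι ℝ) (c : κ → ℝ) (f : κ → ι → ℝ) (W : ι → ℂ) : ℝ :=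
  ∑ k, c k * En A W (f k)

theorem EnC_nonneg {c : κ → ℝ} (hc : ∀ k, 0 ≤ c k) {e v : ι → ℝ} (he : ∀ x, 0 ≤ e x) :
    0 ≤ EnC A c f (WV E e v) := by
  refine Finset.sum_nonneg fun k _ => mul_nonneg (hc k) ?_
  rw [WV_eq_Wp]
  exact En_nonneg' _ _ he _

/-- upper bound of a weighted energy -/
theorem EnC_bdd (hA : A.IsSymm) {c : κ → ℝ} (hc : ∀ k, 0 ≤ c k) {e v : ι → ℝ}
    (he : ∀ x, 0 < e x) :
    EnC A c f (WV E e v) ≤ ∑ k, c k * ∑ x, ∑ y, (f k x - f k y) ^ 2 := by
  refine Finset.sum_le_sum fun k _ => mul_le_mul_of_nonneg_left ?_ (hc k)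
  rw [WV_eq_Wp]
  exact En_le hA _ _ he _

theorem measurable_EnC (c : κ → ℝ) (e : ι → ℝ) :
    Measurable fun v => EnC A c f (WV E e v) :=
  Finset.measurable_sum _ fun k _ => (measurable_En_WV E e (f k)).const_mul _

/-- absorptions within a factor `θ`: energies within a factor `(2 / θ) ^ 2` -/
theorem En_profile_le (hA : A.IsSymm) {e e' : ι → ℝ} (he : ∀ x, 0 < e x) {θ : ℝ} (hθ : 0 < θ)
    (h1 : ∀ x, θ * e x ≤ e' x) (h2 : ∀ x, θ * e' x ≤ e x) (v : ι → ℝ) (g : ι → ℝ) :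
    En A (WV E e' v) g ≤ (2 / θ) ^ 2 * En A (WV E e v) g := by
  refine P365H763.En_cmp_abs hA (fun x => WV_neg he v x) hθ (fun x => ?_) (fun x => ?_)
    (fun x => ?_) g
  · simp [WV]
  · rw [P365T1.WV_im, P365T1.WV_im]
    have := h1 x
    linarith
  · rw [P365T1.WV_im, P365T1.WV_im]
    have := h2 x
    linarith

theorem EnC_profile_le (hA : A.IsSymm) {c : κ → ℝ} (hc : ∀ k, 0 ≤ c k) {e e' : ι → ℝ}
    (he : ∀ x, 0 < e x) {θ : ℝ} (hθ : 0 < θ)
    (h1 : ∀ x, θ * e x ≤ e' x) (h2 : ∀ x, θ * e' x ≤ e x) (v : ι → ℝ) :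
    EnC A c f (WV E e' v) ≤ (2 / θ) ^ 2 * EnC A c f (WV E e v) := by
  unfold EnC
  rw [Finset.mul_sum]
  refine Finset.sum_le_sum fun k _ => ?_
  have h3 := mul_le_mul_of_nonneg_left (En_profile_le (E := E) hA he hθ h1 h2 v (f k)) (hc k)
  linarith

/-- a bounded measurable function of a weighted energy is integrable -/
theorem integrable_EnC (hA : A.IsSymm) (m : Measure (ι → ℝ)) [IsFiniteMeasure m] {c : κ → ℝ}
    (hc : ∀ k, 0 ≤ c k) {e : ι → ℝ} (he : ∀ x, 0 < e x) {H : ℝ → ℝ} (hH : Measurable H)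
    {B : ℝ → ℝ} (hB : ∀ R F, 0 ≤ F → F ≤ R → |H F| ≤ B R) :
    Integrable (fun v => H (EnC A c f (WV E e v))) m := by
  refine Integrable.mono' (integrable_const
    (B (∑ k, c k * ∑ x, ∑ y, (f k x - f k y) ^ 2)))
    (hH.comp (measurable_EnC c e)).aestronglyMeasurable (Eventually.of_forall fun v => ?_)
  rw [Real.norm_eq_abs]
  exact hB _ _ (EnC_nonneg hc fun x => (he x).le) (EnC_bdd hA hc he)

theorem integrable_EnC_sq (hA : A.IsSymm) (m : Measure (ι → ℝ)) [IsFiniteMeasure m] {c : κ → ℝ}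
    (hc : ∀ k, 0 ≤ c k) {e : ι → ℝ} (he : ∀ x, 0 < e x) :
    Integrable (fun v => EnC A c f (WV E e v) ^ 2) m :=
  integrable_EnC hA m hc he (H := fun F => F ^ 2) (by fun_prop) (B := fun R => R ^ 2)
    fun R F h0 h1 => by
      rw [abs_of_nonneg (sq_nonneg _)]
      exact pow_le_pow_left₀ h0 h1 2

theorem integrable_EnC_id (hA : A.IsSymm) (m : Measure (ι → ℝ)) [IsFiniteMeasure m] {c : κ → ℝ}
    (hc : ∀ k, 0 ≤ c k) {e : ι → ℝ} (he : ∀ x, 0 < e x) :
    Integrable (fun v => EnC A c f (WV E e v)) m :=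
  integrable_EnC hA m hc he (H := fun F => F) measurable_id (B := fun R => R)
    fun R F h0 h1 => by rwa [abs_of_nonneg h0]

theorem integrable_EnC_Th (hA : A.IsSymm) (m : Measure (ι → ℝ)) [IsFiniteMeasure m] {c : κ → ℝ}
    (hc : ∀ k, 0 ≤ c k) {e : ι → ℝ} (he : ∀ x, 0 < e x) {a C : ℝ} (ha : 0 < a) (hC : 0 ≤ C) :
    Integrable (fun v => H211.Th a C (EnC A c f (WV E e v))) m :=
  integrable_EnC hA m hc he (H := H211.Th a C) H211.measurable_Th
    (B := fun R => (a + C) * R) fun R F h0 h1 => by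
      rw [abs_of_nonneg (H211.Th_nonneg ha hC h0)]
      exact (H211.Th_le_lin ha h0).trans (mul_le_mul_of_nonneg_left h1 (by positivity))

/-- **comparison of the averages**: `Th a C` of a weighted energy for the profile `e'` against the
second and the first moment for the profile `e` -/
theorem AvG_Th_le (hA : A.IsSymm) [∀ k, IsProbabilityMeasure (ν k)] (hp : ∀ k, 0 ≤ p k)
    {c : κ → ℝ} (hc : ∀ k, 0 ≤ c k) {e e' : (ι → Λ) → ι → ℝ} (he : ∀ l x, 0 < e l x)
    {θ : ℝ} (hθ : 0 < θ) (h1 : ∀ l x, θ * e l x ≤ e' l x) (h2 : ∀ l x, θ * e' l x ≤ e l x)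
    {a C : ℝ} (ha : 0 < a) (hC : 0 ≤ C) :
    AvG p ν E e' (fun _ W => H211.Th a C (EnC A c f W)) ≤
      (2 / θ) ^ 4 * AvG p ν E e (fun _ W => EnC A c f W ^ 2) +
      C * ((2 / θ) ^ 2 * AvG p ν E e (fun _ W => EnC A c f W)) := by
  have he' : ∀ l x, 0 < e' l x := fun l x => (mul_pos hθ (he l x)).trans_le (h1 l x)
  have key : ∀ l : ι → Λ, Ex (fun x => ν (l x)) E (e' l) (fun W => H211.Th a C (EnC A c f W)) ≤
      (2 / θ) ^ 4 * Ex (fun x => ν (l x)) E (e l) (fun W => EnC A c f W ^ 2) +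
      C * ((2 / θ) ^ 2 * Ex (fun x => ν (l x)) E (e l) (fun W => EnC A c f W)) := by
    intro l
    unfold Ex
    have i1 := integrable_EnC_sq (A := A) (f := f) (E := E) hA (Measure.pi fun x => ν (l x)) hc
      (he l)
    have i2 := integrable_EnC_id (A := A) (f := f) (E := E) hA (Measure.pi fun x => ν (l x)) hc
      (he l)
    rw [← integral_const_mul, ← integral_const_mul, ← integral_const_mul,
      ← integral_add (i1.const_mul _) ((i2.const_mul _).const_mul _)]
    refine integral_mono (integrable_EnC_Th hA _ hc (he' l) ha hC)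
      ((i1.const_mul _).add ((i2.const_mul _).const_mul _)) fun v => ?_
    have h3 := EnC_profile_le (A := A) (f := f) (E := E) hA hc (he l) hθ (h1 l) (h2 l) v
    have h4 : 0 ≤ EnC A c f (WV E (e' l) v) := EnC_nonneg hc fun x => (he' l x).le
    have h5 : 0 ≤ EnC A c f (WV E (e l) v) := EnC_nonneg hc fun x => (he l x).le
    have h6 := H211.Th_le (A := a) (C := C) ha h4
    have h7 : EnC A c f (WV E (e' l) v) ^ 2 ≤ ((2 / θ) ^ 2 * EnC A c f (WV E (e l) v)) ^ 2 :=
      pow_le_pow_left₀ h4 h3 2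
    have h8 := mul_le_mul_of_nonneg_left h3 hC
    simp only
    calc H211.Th a C (EnC A c f (WV E (e' l) v)) ≤ _ := h6
      _ ≤ ((2 / θ) ^ 2 * EnC A c f (WV E (e l) v)) ^ 2 +
          C * ((2 / θ) ^ 2 * EnC A c f (WV E (e l) v)) := add_le_add h7 h8
      _ = _ := by ring
  unfold AvG
  calc ∑ l : ι → Λ, (∏ x, p (l x)) * Ex (fun x => ν (l x)) E (e' l)
        (fun W => H211.Th a C (EnC A c f W))
      ≤ ∑ l : ι → Λ, (∏ x, p (l x)) *
        ((2 / θ) ^ 4 * Ex (fun x => ν (l x)) E (e l) (fun W => EnC A c f W ^ 2) +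
        C * ((2 / θ) ^ 2 * Ex (fun x => ν (l x)) E (e l) (fun W => EnC A c f W))) :=
        Finset.sum_le_sum fun l _ => mul_le_mul_of_nonneg_left (key l)
          (Finset.prod_nonneg fun x _ => hp _)
    _ = _ := by
        rw [Finset.mul_sum, Finset.mul_sum, Finset.mul_sum, ← Finset.sum_add_distrib]
        refine Finset.sum_congr rfl fun l _ => ?_
        ring

end gen

/-! ### the profiles at the beginnings of the stages -/

section v4

variable {N : ℕ} [NeZero N] {D : V4 N} {ρ : Measure ℝ}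

/-- profile at the beginning of the stage `j` -/
noncomputable def st (D : V4 N) (j : ℕ) : (Tor N → D.Λ) → Tor N → ℝ :=
  fun l x => D.us j l x + D.Ws j l x

/-- product of the final factors of the stages `k < j` -/
noncomputable def th (D : V4 N) (j : ℕ) : ℝ := ∏ k ∈ Finset.range j, D.t k

theorem eT_zero_eq (j : ℕ) : eT (D.us j) (D.Ws j) 0 = st D j := eT_zero _ _

theorem st_succ {j : ℕ} (hj : j ≤ D.I) (l : Tor N → D.Λ) (x : Tor N) :
    st D (j + 1) l x = D.us j l x + D.t j * D.Ws j l x := (V4.link (by omega) l x).symm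

theorem eT_end (h : D.Ok ρ) {j : ℕ} (hj : j ≤ D.I) :
    eT (D.us j) (D.Ws j) (Real.log (1 / D.t j)) = st D (j + 1) := by
  rw [eT_log _ _ (h.t_pos j (by omega))]
  funext l x
  exact (st_succ hj l x).symm

theorem st_pos (h : D.Ok ρ) {j : ℕ} (hj : j ≤ D.I + 1) (l : Tor N → D.Λ) (x : Tor N) :
    0 < st D j l x := by
  have h1 := h.us_ge j l x
  have h2 := h.b_pos
  have h3 := h.toOk.Ws_nonneg hj l x
  unfold st
  linarith

theorem st_anti (h : D.Ok ρ) {j : ℕ} (hj : j ≤ D.I) (l : Tor N → D.Λ) (x : Tor N) :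
    st D (j + 1) l x ≤ st D j l x := by
  rw [st_succ hj]
  have h3 := h.toOk.Ws_nonneg (show j ≤ D.I + 1 by omega) l x
  have h4 := h.t_le j (by omega)
  unfold st
  nlinarith

theorem st_ge (h : D.Ok ρ) {j : ℕ} (hj : j ≤ D.I) (l : Tor N → D.Λ) (x : Tor N) :
    D.t j * st D j l x ≤ st D (j + 1) l x := by
  rw [st_succ hj]
  have h1 := h.us_nonneg j l x
  have h4 := h.t_le j (by omega)
  unfold st
  nlinarith

theorem st_le_zero (h : D.Ok ρ) {j : ℕ} (hj : j ≤ D.I + 1) (l : Tor N → D.Λ) (x : Tor N) :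
    st D j l x ≤ st D 0 l x := by
  induction j with
  | zero => exact le_rfl
  | succ j ih => exact (st_anti h (by omega) l x).trans (ih (by omega))

theorem th_pos (h : D.Ok ρ) {j : ℕ} (hj : j ≤ D.I + 1) : 0 < th D j :=
  Finset.prod_pos fun k hk => h.t_pos k (by
    rw [Finset.mem_range] at hk
    omega)

theorem th_le_one (h : D.Ok ρ) {j : ℕ} (hj : j ≤ D.I + 1) : th D j ≤ 1 :=
  Finset.prod_le_one (fun k hk => (h.t_pos k (by
    rw [Finset.mem_range] at hk
    omega)).le) fun k hk => h.t_le k (by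
    rw [Finset.mem_range] at hk
    omega)

theorem th_mul_le (h : D.Ok ρ) {j : ℕ} (hj : j ≤ D.I + 1) (l : Tor N → D.Λ) (x : Tor N) :
    th D j * st D 0 l x ≤ st D j l x := by
  induction j with
  | zero =>
    unfold th
    rw [Finset.range_zero, Finset.prod_empty, one_mul]
  | succ j ih =>
    have h1 := ih (by omega)
    have h2 : th D (j + 1) = D.t j * th D j := by
      unfold th
      rw [Finset.prod_range_succ, mul_comm]
    rw [h2, mul_assoc]
    exact (mul_le_mul_of_nonneg_left h1 (h.t_pos j (by omega)).le).trans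
      (st_ge h (by omega) l x)

theorem th_mul_le' (h : D.Ok ρ) {j : ℕ} (hj : j ≤ D.I + 1) (l : Tor N → D.Λ) (x : Tor N) :
    th D j * st D j l x ≤ st D 0 l x := by
  have h1 := th_le_one h hj
  have h2 := st_pos h hj l x
  have h3 := st_le_zero h hj l x
  nlinarith

/-- **energies at the beginning of the stage `j` against START, pathwise** -/
theorem En_st_le (h : D.Ok ρ) {j : ℕ} (hj : j ≤ D.I + 1) {A : Matrix (Tor N) (Tor N) ℝ}
    (hA : A.IsSymm) (E : ℝ) (l : Tor N → D.Λ) (v : Tor N → ℝ) (g : Tor N → ℝ) :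
    En A (WV E (st D j l) v) g ≤ (2 / th D j) ^ 2 * En A (WV E (st D 0 l) v) g :=
  En_profile_le hA (st_pos h (by omega) l) (th_pos h hj) (th_mul_le h hj l) (th_mul_le' h hj l)
    v g

/-- **`Th` of a weighted energy at the beginning of the stage `j`** from its first two moments at
START -/
theorem AvG_st_le (h : D.Ok ρ) {j : ℕ} (hj : j ≤ D.I + 1) {A : Matrix (Tor N) (Tor N) ℝ}
    (hA : A.IsSymm) (E : ℝ) {κ : Type*} [Fintype κ] (f : κ → Tor N → ℝ) {c : κ → ℝ}
    (hc : ∀ k, 0 ≤ c k) {a C : ℝ} (ha : 0 < a) (hC : 0 ≤ C) :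
    AvG D.p D.ν E (st D j) (fun _ W => H211.Th a C (EnC A c f W)) ≤
      (2 / th D j) ^ 4 * AvG D.p D.ν E (st D 0) (fun _ W => EnC A c f W ^ 2) +
      C * ((2 / th D j) ^ 2 * AvG D.p D.ν E (st D 0) (fun _ W => EnC A c f W)) := by
  haveI := h.prob
  exact AvG_Th_le hA h.p_nonneg hc (st_pos h (by omega)) (th_pos h hj) (th_mul_le h hj)
    (th_mul_le' h hj) ha hC

end v4

end P365T2.H908
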