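import Vale.Agent.P365.T2.H908.QLe
import Vale.Agent.P365.T2.H536.KJ
import Vale.Agent.P365.T2.KJnum795
import Vale.Agent.P365.T2.H919.KJd
import Vale.Agent.P365.T2.H704.Bind

/-!
# P365-T2, (k7) (helper908): `Q0Part Q0`

The block functionals at the beginning of the stage `i + 1` of the homogeneous worlds:
START (536), stages `j + 1, …, i` (79, 548), numbers (795, 919).
-/

set_option linter.all false

namespace P365T2.H908

open P365L P365O P365T1 P365L.TL P365T1.Conc P365T1.Bump Matrix Complex MeasureTheory Filter Topology Set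
open Vale.Agent.P365.J376 P365T2.SeqG P365T2.ConcG P365V4.Free P365T2.H213
open scoped ComplexConjugate ENNReal

/-- energy constant -/
noncomputable def BcW (lam E : ℝ) (rs : ℕ) : ℝ :=
  10 * (4 + (rs : ℝ) + (rs : ℝ) ^ 5) + 3 * (30 * cauS lam (lam * tau0 / 2) E) / rs

/-- constant of the law errors -/
noncomputable def cW (lam E : ℝ) (rs : ℕ) : ℝ :=
  CE (Fin 3) E lam (lam * tau0 / 2) * (1 + H79.CT (Fin 3)) *
    (3 * (23 * 14 ^ 2 * Real.exp (BcW lam E rs)) * 3)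

/-- constant at the beginning of the stage `j + 1` -/
noncomputable def C2W (rs j : ℕ) : ℝ :=
  (2 / KJnum.thf rs (j + 1)) ^ 4 * 10 ^ 19 +
    H79.CT (Fin 3) * ((2 / KJnum.thf rs (j + 1)) ^ 2 * 10 ^ 7)

section world

variable {lam E : ℝ} {yf : ℕ → ℤ × ℤ} {Vsf : ℕ → ℤ × ℤ → ℝ} {rs I N : ℕ} [NeZero N] {b : ℝ}

/-- the estimate in one world -/
theorem q_world (hlam : 0 < lam) (hrs : 2 ≤ rs) (hadm : AdmS 8 lam yf Vsf rs I)
    (hfl : FlOk yf rs I N b (fun _ _ => b) b)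
    (hok : (World lam yf Vsf rs I N b (fun _ _ => b) b).Ok (nuL lam))
    (hhub : ∀ i ≤ I, ∀ s, tF 8 rs I b (i + 1) ≤ s → s ≤ 1 →
        HC4 (World lam yf Vsf rs I N b (fun _ _ => b) b).toV3 N Finset.univ E
          ((World lam yf Vsf rs I N b (fun _ _ => b) b).prof i s s) i
            (1 / (rr 8 rs i : ℝ) ^ 200) ∧
        ∀ (κ : Type) [Fintype κ] (F : κ → Tor N → ℝ) (Λf : ℝ), 0 ≤ Λf → VecLip F Λf →
          HBe (World lam yf Vsf rs I N b (fun _ _ => b) b).toV3 N Finset.univ F E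
            ((World lam yf Vsf rs I N b (fun _ _ => b) b).prof i s s) i s
              (1 / (rr 8 rs i : ℝ) ^ 200) (Λf ^ 2 * (N : ℝ) ^ 2))
    {j i : ℕ} (hji : j ≤ i) (hi : i ≤ I) {T : ℝ} (hT : 1 ≤ T) {ρ : ℕ} (hρ : 0 < ρ) :
    ∑ z : Tor N, AvG (World lam yf Vsf rs I N b (fun _ _ => b) b).p
      (World lam yf Vsf rs I N b (fun _ _ => b) b).ν E
      (st (World lam yf Vsf rs I N b (fun _ _ => b) b) (i + 1))
      (fun _ V => H211.psi T (H784.PhB (AT N) V (H784.fB z ρ))) ≤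
      (C2W rs j / T + cW lam E rs / ((j : ℝ) + 1)) * (N : ℝ) ^ 2 := by
  have hl := l0_pos hlam
  have hla := l0_lt hlam
  have hCE := CE_nonneg (Fin 3) E hl hla
  have hCT := H79.CT_nonneg (Fin 3)
  have hcau := cauS_nonneg lam (lam * tau0 / 2) E
  have h0 := H536.sum_PhB_st_le hok (j := j + 1) (show j + 1 ≤ I + 1 by omega) (AT_symm N)
    (fun x y => by
      rw [abs_of_nonneg]
      unfold AT
      split_ifs <;> norm_num) E hρ (a := T) (C := H79.CT (Fin 3)) (by linarith) hCT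
  rw [KJnum.th_World (show j + 1 ≤ I + 1 by omega)] at h0
  have h1 := q_le hok (hX := rfl) (E := E) hl hla
    (R₀ := lam) (fun k => nuD_supp (β := 8) (lam := lam) (yf := yf) (Vsf := Vsf) (rs := rs)
      (I := I) hadm k)
    (fun k hk => nuD_mov (β := 8) (lam := lam) (yf := yf) (Vsf := Vsf) (rs := rs) (I := I)
      hadm hk)
    (q := fun j => 1 / (rr 8 rs j : ℝ) ^ 200) (fun j => by positivity)
    (fun j hj s hs => (hhub j hj s hs.1 hs.2).1)
    (fun j hj s hs => (hhub j hj s hs.1 hs.2).2) (Bc := BcW lam E rs)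
    (H919.acc_le hrs hfl (by norm_num) hcau) hT hρ hji hi (K2 := C2W rs j) h0
  refine h1.trans (mul_le_mul_of_nonneg_right (add_le_add le_rfl ?_) (by positivity))
  have h2 := KJnum.sum_KJ (β := 8) (I := I) (b := b) (K := 200) (p := 0) (q := 1) hrs
    (by norm_num) (B := 3 * (23 * 14 ^ 2 * Real.exp (BcW lam E rs))) (c := 1) (by positivity)
    zero_le_one (LL := fun _ => 1) (j := j) (i := i) hi (fun k _ _ => by simp)
  have h3 : ∑ k ∈ Finset.Ico j i, 3 * (1 / (rr 8 rs k : ℝ) ^ 200) *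
      (23 * 14 ^ 2 * Real.exp (BcW lam E rs)) * Real.log (1 / tF 8 rs I b (k + 1)) ≤
      3 * (23 * 14 ^ 2 * Real.exp (BcW lam E rs)) * 3 / ((j : ℝ) + 1) := by
    refine le_trans (le_of_eq ?_) (h2.trans (le_of_eq ?_))
    · refine Finset.sum_congr rfl fun k _ => ?_
      ring
    · ring
  have h4 := mul_le_mul_of_nonneg_left h3
    (show 0 ≤ CE (Fin 3) E lam (lam * tau0 / 2) * (1 + H79.CT (Fin 3)) by positivity)
  refine h4.trans (le_of_eq ?_)
  unfold cW
  ring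

end world

/-- **(k7)** -/
theorem q0Part : H704.Q0Part H784.Q0 := by
  intro lam E yf Vsf hlam hE hK
  obtain ⟨R, hR, -, hmain⟩ := hK 200
  refine ⟨R, hR, fun rs hrs => ?_⟩
  have hrs2 : 2 ≤ rs := hR.trans hrs
  have hl := l0_pos hlam
  have hla := l0_lt hlam
  have hCE := CE_nonneg (Fin 3) E hl hla
  have hCT := H79.CT_nonneg (Fin 3)
  have hc : 0 ≤ cW lam E rs := by
    unfold cW
    positivity
  obtain ⟨gf, hgf1, hgf⟩ := KJnum.exists_gf (C2W rs) hc
  refine ⟨gf, hgf1, fun η hη => ?_⟩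
  obtain ⟨i₀, hi₀⟩ := hgf η hη
  refine ⟨i₀, fun i hi I hI N _ b hfl r hr ρ hρ _ => ?_⟩
  obtain ⟨j, hji, hj⟩ := hi₀ i hi r hr
  obtain ⟨hadm, hW⟩ := hmain rs hrs I
  obtain ⟨hok, hhub⟩ := hW N b (fun _ _ => b) b hfl
  have h1 := q_world (E := E) hlam hrs2 hadm hfl hok hhub hji (show i ≤ I by omega) (hgf1 r) hρ
  refine le_trans (le_of_eq ?_) (h1.trans (mul_le_mul_of_nonneg_right hj (by positivity)))
  unfold H784.Qsc StW.Av
  refine Finset.sum_congr rfl fun z _ => ?_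
  rw [← eT_zero_eq]
  rfl

end P365T2.H908
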