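import Vale.Agent.P365.T2.H908.Fam
import Vale.Agent.P365.T2.H79.Flow
import Vale.Agent.P365.T2.SmLaw755

/-!
# P365-T2, X-KJSTAR (helper908): the one-block flow for the smooth law

`smL_nuS`, `c2_nuS` : the smooth law in the form of helper79.
`CN_le` : the constant of the law error is at most `CE (T + CT)` for `T ≥ 1`.
`YT_eq` : helper79's off-resonant energy in the form `YG`.
`blk_flow` : derivative of `Av Th (PhB)` at most `CE (T + CT) YG`.
-/

set_option linter.all false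

namespace P365T2.H908

open P365L P365O P365T1 P365L.TL Matrix Complex MeasureTheory Filter Topology Set
open Vale.Agent.P365.J376
open scoped ComplexConjugate ENNReal

theorem smL_nuS {a l : ℝ} (hl : 0 < l) (h : l < a) :
    H79.SmL (nuS a l) a (P365T1.Smooth755.K1 a l) := by
  have h1 := P365T1.Smooth755.smLaw_nuS hl h
  exact ⟨_, _, h1.hd, h1.cont, h1.nonneg, fun v => P365T1.Smooth755.abs_rhoSd_le hl h v,
    fun v hv => P365T2.H722.rhoS_eq_zero hl h hv, h1.eq⟩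

/-- constant of the second Cauchy transform of the smooth law -/
noncomputable def c2S (a l : ℝ) : ℝ :=
  2 * (1 + (0 : ℝ) ^ 2) * (5500 * ((1 + 2 * a ^ 2) / l ^ 2 + 2))

theorem c2_nuS {a l : ℝ} (hl : 0 < l) (h : l < a) : H79.C2 (nuS a l) (c2S a l) := by
  intro s hs
  have h1 := cau2_nuS hl h 0 s hs
  have h2 : ∀ v : ℝ, 1 / (((v - 0 : ℝ) : ℂ) - s) ^ 2 = H79.tt s v ^ 2 := by
    intro v
    unfold H79.tt
    rw [inv_pow, one_div, sub_zero]
  simp only [h2] at h1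
  exact h1

/-- constant of the law error for the smooth law, divided by `T + CT` -/
noncomputable def CE (κ : Type*) [Fintype κ] (E a l : ℝ) : ℝ :=
  ((1 + 3 / 2 * (320 * (Fintype.card κ : ℝ)) * 2) * c2S a l +
    (2 + 3 / 2 * (320 * (Fintype.card κ : ℝ)) * 3) * (320 * (Fintype.card κ : ℝ)) *
      (P365T1.Smooth755.K1 a l * (2 * a + 1) ^ 2 * Real.pi)) * (20 * (1 + E ^ 2))

theorem K1_nonneg {a l : ℝ} (hl : 0 < l) (h : l < a) : 0 ≤ P365T1.Smooth755.K1 a l :=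
  (abs_nonneg _).trans (P365T1.Smooth755.abs_rhoSd_le hl h 0)

theorem c2S_nonneg (a l : ℝ) : 0 ≤ c2S a l := by
  unfold c2S
  positivity

theorem CE_nonneg (κ : Type*) [Fintype κ] (E : ℝ) {a l : ℝ} (hl : 0 < l) (h : l < a) :
    0 ≤ CE κ E a l := by
  have h1 := K1_nonneg hl h
  have h2 := c2S_nonneg a l
  have h3 := Real.pi_pos
  unfold CE
  positivity

theorem CN_le (κ : Type*) [Fintype κ] (E : ℝ) {a l T : ℝ} (hl : 0 < l) (h : l < a) (hT : 1 ≤ T) :
    H79.CN κ E a (P365T1.Smooth755.K1 a l) (c2S a l) T ≤ CE κ E a l * (T + H79.CT κ) := by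
  have h1 := K1_nonneg hl h
  have h2 := c2S_nonneg a l
  have h3 := Real.pi_pos
  have h4 := H79.CT_nonneg κ
  have hc : (0 : ℝ) ≤ (Fintype.card κ : ℝ) := Nat.cast_nonneg _
  have hs : 1 ≤ T + H79.CT κ := by linarith
  have hT3 : 3 / T ≤ 3 := by
    rw [div_le_iff₀ (by linarith)]
    linarith
  unfold H79.CN H79.CL CE
  obtain ⟨K, hK⟩ : ∃ K, 320 * (Fintype.card κ : ℝ) = K := ⟨_, rfl⟩
  have hK0 : 0 ≤ K := by
    rw [← hK]
    positivity
  obtain ⟨P, hP⟩ : ∃ P, P365T1.Smooth755.K1 a l * (2 * a + 1) ^ 2 * Real.pi = P := ⟨_, rfl⟩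
  have hP0 : 0 ≤ P := by
    rw [← hP]
    positivity
  rw [hK, hP]
  have e1 : (T + H79.CT κ + 3 / 2 * K * 2) * c2S a l ≤
      (1 + 3 / 2 * K * 2) * c2S a l * (T + H79.CT κ) := by
    have h5 : T + H79.CT κ + 3 / 2 * K * 2 ≤ (1 + 3 / 2 * K * 2) * (T + H79.CT κ) := by
      nlinarith
    calc _ ≤ ((1 + 3 / 2 * K * 2) * (T + H79.CT κ)) * c2S a l :=
          mul_le_mul_of_nonneg_right h5 h2
      _ = _ := by ring
  have e2 : (2 + 3 / 2 * K * (3 / T)) * K * P ≤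
      (2 + 3 / 2 * K * 3) * K * P * (T + H79.CT κ) := by
    have h5 : 2 + 3 / 2 * K * (3 / T) ≤ 2 + 3 / 2 * K * 3 := by
      have := mul_le_mul_of_nonneg_left hT3 (show 0 ≤ 3 / 2 * K by positivity)
      linarith
    have h6 : (2 + 3 / 2 * K * (3 / T)) * K * P ≤ (2 + 3 / 2 * K * 3) * K * P := by
      gcongr
    refine h6.trans (le_mul_of_one_le_right (by positivity) hs)
  calc ((T + H79.CT κ + 3 / 2 * K * 2) * c2S a l + (2 + 3 / 2 * K * (3 / T)) * K * P) *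
        (20 * (1 + E ^ 2))
      ≤ ((1 + 3 / 2 * K * 2) * c2S a l * (T + H79.CT κ) +
        (2 + 3 / 2 * K * 3) * K * P * (T + H79.CT κ)) * (20 * (1 + E ^ 2)) :=
        mul_le_mul_of_nonneg_right (add_le_add e1 e2) (by positivity)
    _ = _ := by ring

variable {N : ℕ} [NeZero N]

theorem Nf_two (A : Matrix (Tor N) (Tor N) ℝ) (W : Tor N → ℂ) (f : Tor N → ℝ) (z : Tor N) :
    Nf A W (fun x => 2 * f x) z = 4 * Nf A W f z := by
  unfold Nf
  rw [Finset.mul_sum]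
  refine Finset.sum_congr rfl fun x _ => ?_
  ring

/-- one-site off-resonant energy of the block functional in vector form -/
theorem YB_eq_sum (A : Matrix (Tor N) (Tor N) ℝ) (W : Tor N → ℂ) (ρ : ℕ) (z x : Tor N) :
    H79.YB A W (H784.fB z ρ) x = ∑ q : Fin 3 × Fin 2, Yf A W (FF ρ z q) x := by
  have h1 : ∑ q : Fin 3 × Fin 2, Yf A W (FF ρ z q) x =
      ∑ k : Fin 3, ∑ m : Fin 2, Yf A W (FF ρ z (k, m)) x :=
    Fintype.sum_prod_type (f := fun q : Fin 3 × Fin 2 => Yf A W (FF ρ z q) x)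
  rw [h1]
  unfold H79.YB
  refine Finset.sum_congr rfl fun k _ => ?_
  rw [Fin.sum_univ_two]
  have e0 : FF ρ z (k, 0) = fun x => 2 * H784.fB z ρ k x := rfl
  have e1 : FF ρ z (k, 1) = fun x => H784.fB z ρ k x ^ 2 := rfl
  rw [e0, e1]
  unfold Yf
  rw [Nf_two]
  ring

/-- helper79's off-resonant energy in the form `YG` -/
theorem YT_eq {A : Matrix (Tor N) (Tor N) ℝ} (hA : A.IsSymm) {Λ : Type*} [Fintype Λ]
    {p : Λ → ℝ} {ν : Λ → Measure ℝ} {E : ℝ} [∀ k, IsProbabilityMeasure (ν k)]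
    {e : (Tor N → Λ) → Tor N → ℝ} (he : ∀ l x, 0 < e l x) (w : (Tor N → Λ) → Tor N → ℝ)
    (ρ : ℕ) (z : Tor N) :
    H79.YT A p ν E (H784.fB z ρ) e w = YG A p ν E (FF ρ z) e w := by
  unfold H79.YT YG AvG Ex
  refine Finset.sum_congr rfl fun l _ => ?_
  congr 1
  have hi : ∀ x (q : Fin 3 × Fin 2), Integrable (fun v => Yf A (WV E (e l) v) (FF ρ z q) x)
      (Measure.pi fun x => ν (l x)) := fun x q => integrable_Yf hA _ E (he l) (FF ρ z q) x
  simp only [YB_eq_sum]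
  rw [integral_finset_sum _ fun x _ => (integrable_finset_sum _ fun q _ => hi x q).const_mul _]
  refine Finset.sum_congr rfl fun x _ => ?_
  rw [integral_const_mul, integral_finset_sum _ fun q _ => hi x q]

/-- **the flow of one block** -/
theorem blk_flow {A : Matrix (Tor N) (Tor N) ℝ} (hA : A.IsSymm) {Λ : Type*} [Fintype Λ]
    {p : Λ → ℝ} {ν : Λ → Measure ℝ} {E : ℝ} [∀ k, IsProbabilityMeasure (ν k)]
    (hp : ∀ k, 0 ≤ p k) {R₀ : ℝ} (hR₀ : ∀ k, ν k (Icc (-R₀) R₀)ᶜ = 0)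
    {u w : (Tor N → Λ) → Tor N → ℝ} (hu : ∀ l x, 0 < u l x)
    (hw : ∀ l x, 0 ≤ w l x) {a l : ℝ} (hl : 0 < l) (h : l < a)
    (hmov : ∀ L x, w L x ≠ 0 → ν (L x) = nuS a l) (ρ : ℕ) (z : Tor N) {T : ℝ} (hT : 1 ≤ T)
    (τ : ℝ) :
    ∃ d, HasDerivAt (fun τ => AvG p ν E (eT u w τ)
        (fun _ W => H211.Th T (H79.CT (Fin 3)) (H784.PhB A W (H784.fB z ρ)))) d τ ∧
      d ≤ CE (Fin 3) E a l * (T + H79.CT (Fin 3)) *
        YG A p ν E (FF ρ z) (eT u w τ) (wT w τ) := by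
  have hT0 : 0 < T := by linarith
  have he : ∀ L x, 0 < eT u w τ L x := fun L x => by
    have := mul_nonneg (Real.exp_pos (-τ)).le (hw L x)
    have := hu L x
    unfold eT
    linarith
  have hwT : ∀ L x, 0 ≤ wT w τ L x := fun L x => mul_nonneg (Real.exp_pos (-τ)).le (hw L x)
  obtain ⟨d, hd, hd'⟩ := H79.flow_Th (E := E) hA hp hR₀ hu hw
    (show 0 ≤ a by linarith) (K1_nonneg hl h)
    (fun L x hx => by
      rw [hmov L x hx]
      exact ⟨smL_nuS hl h, c2_nuS hl h⟩) (f := H784.fB z ρ)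
    (fun k x => H784.abs_fB_le_one z ρ k x) hT0 τ
  refine ⟨d, hd, hd'.trans ?_⟩
  have h1 := H79.DT_nonneg (A := A) (p := p) (ν := ν) (E := E) (f := H784.fB z ρ) hA hp hT0 he hwT
  rw [YT_eq hA he]
  have h2 : 0 ≤ YG A p ν E (FF ρ z) (eT u w τ) (wT w τ) := YG_nonneg hp he hwT
  have h3 := mul_le_mul_of_nonneg_right (CN_le (Fin 3) E hl h hT) h2
  linarith

end P365T2.H908
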