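import Vale.Agent.P365.T2.H908.Mono
import Vale.Agent.P365.V4.HubYG937
import Vale.Agent.P365.T2.H784.Heavy

/-!
# P365-T2, X-KJSTAR, part e (helper908): transport over the stages `j0 + 1, …, i`

`step_le`    : a function whose derivative is at most `B` grows at most by `B T`.
`chain`      : any functional `V` of the profile, stages `j0 + 1 … i`.
`YG_sum`     : the off-resonant energies of a family of families.
`transport`  : the sum over a finite set `Z` of `AvG (H z)`, when the derivative of each term is at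
  most `Cc (1 + LL)` times the off-resonant energy of the family `Fz z`.
-/

set_option linter.all false

namespace P365T2.H908

open P365L P365O P365T1 P365L.TL Matrix Complex MeasureTheory Filter Topology Set
open Vale.Agent.P365.J376
open scoped ComplexConjugate ENNReal

theorem step_le {G : ℝ → ℝ} {T B : ℝ} (hT : 0 ≤ T)
    (h : ∀ τ ∈ Icc 0 T, ∃ d, HasDerivAt G d τ ∧ d ≤ B) : G T ≤ G 0 + B * T := by
  have h1 : G T - G 0 ≤ B * (T - 0) := by
    refine (convex_Icc (0 : ℝ) T).image_sub_le_mul_sub_of_deriv_le ?_ ?_ ?_ 0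
      (left_mem_Icc.2 hT) T (right_mem_Icc.2 hT) hT
    · intro τ hτ
      obtain ⟨d, hd, -⟩ := h τ hτ
      exact hd.continuousAt.continuousWithinAt
    · rw [interior_Icc]
      intro τ hτ
      obtain ⟨d, hd, -⟩ := h τ (Ioo_subset_Icc_self hτ)
      exact hd.differentiableAt.differentiableWithinAt
    · rw [interior_Icc]
      intro τ hτ
      obtain ⟨d, hd, hd'⟩ := h τ (Ioo_subset_Icc_self hτ)
      rw [hd.deriv]
      exact hd'
  linarith

section gen

variable {ι : Type*} [Fintype ι] [DecidableEq ι] {A : Matrix ι ι ℝ}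
  {Λ : Type*} [Fintype Λ] {p : Λ → ℝ} {ν : Λ → Measure ℝ} {E : ℝ}

/-- off-resonant energies of a family of families -/
theorem YG_sum {Z κ : Type*} [Fintype Z] [Fintype κ] (Fz : Z → κ → ι → ℝ)
    (e w : (ι → Λ) → ι → ℝ) :
    ∑ z, YG A p ν E (Fz z) e w = YG A p ν E (fun q : Z × κ => Fz q.1 q.2) e w := by
  unfold YG
  rw [Finset.sum_comm]
  refine Finset.sum_congr rfl fun l _ => ?_
  rw [← Finset.mul_sum, Finset.sum_comm]
  congr 1
  refine Finset.sum_congr rfl fun x _ => ?_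
  rw [← Finset.mul_sum]
  congr 1
  rw [Fintype.sum_prod_type]

end gen

section v4

variable {N : ℕ} [NeZero N] {D : V4 N} {ρ : Measure ℝ}

/-- **the stages `j0 + 1, …, i`**, any functional of the profile -/
theorem chain (h : D.Ok ρ) (V : ((Tor N → D.Λ) → Tor N → ℝ) → ℝ) {j0 : ℕ} {B : ℕ → ℝ} :
    ∀ {i : ℕ}, j0 ≤ i → i ≤ D.I →
    (∀ j, j0 ≤ j → j < i → ∀ τ ∈ Icc 0 (Real.log (1 / D.t (j + 1))),
      ∃ d, HasDerivAt (fun τ => V (eT (D.us (j + 1)) (D.Ws (j + 1)) τ)) d τ ∧ d ≤ B j) →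
    V (st D (i + 1)) ≤ V (st D (j0 + 1)) +
      ∑ j ∈ Finset.Ico j0 i, B j * Real.log (1 / D.t (j + 1)) := by
  intro i hij
  induction i, hij using Nat.le_induction with
  | base =>
    intro _ _
    rw [Finset.Ico_self, Finset.sum_empty, add_zero]
  | succ i hij ih =>
    intro hi hd
    have h1 := ih (by omega) fun j hj0 hji => hd j hj0 (by omega)
    have ht := h.t_pos (i + 1) (by omega)
    have ht1 := h.t_le (i + 1) (by omega)
    have hlog : 0 ≤ Real.log (1 / D.t (i + 1)) := Real.log_nonneg (by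
      rw [le_div_iff₀ ht]
      linarith)
    have h2 := step_le hlog (hd i hij (by omega))
    rw [eT_end h (j := i + 1) (by omega), eT_zero_eq] at h2
    rw [Finset.sum_Ico_succ_top hij]
    linarith

/-- **transport of a sum of block functionals over the stages `j0 + 1, …, i`** -/
theorem transport (h : D.Ok ρ) {Z κ : Type} [Fintype Z] [Fintype κ] (Fz : Z → κ → Tor N → ℝ)
    (H : Z → (Tor N → ℂ) → ℝ) {Λf : ℝ}
    (hF : VecLip (fun q : Z × κ => Fz q.1 q.2) Λf) {E C Cc Bc : ℝ} {ηc ηb LL : ℕ → ℝ}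
    (hηc : ∀ j ≤ D.I, 0 ≤ ηc j)
    (hηb : ∀ j ≤ D.I, 0 ≤ ηb j) (hC0 : 0 ≤ C) (hC : ∀ k, D.mov k → Cau2 E C (D.ν k))
    (HC : ∀ j ≤ D.I, ∀ s ∈ Icc (D.t (j + 1)) 1,
      HC4 D.toV3 N D.X E (D.prof j s s) j (ηc j))
    (HB : ∀ j ≤ D.I, ∀ s ∈ Icc (D.t (j + 1)) 1,
      HBe D.toV3 N D.X (fun q : Z × κ => Fz q.1 q.2) E (D.prof j s s) j s (ηb j)
        (Λf ^ 2 * D.X.card))
    (hB : D.acc C ηc ηb (D.I + 1) ≤ Bc) (hCc : 0 ≤ Cc) (hLL : ∀ j, 0 ≤ LL j)
    {j0 i : ℕ} (hij : j0 ≤ i) (hi : i ≤ D.I)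
    (hfl : ∀ j, j0 ≤ j → j < i → ∀ τ ∈ Icc 0 (Real.log (1 / D.t (j + 1))), ∀ z,
      ∃ d, HasDerivAt (fun τ => AvG D.p D.ν E (eT (D.us (j + 1)) (D.Ws (j + 1)) τ)
          (fun _ W => H z W)) d τ ∧
        d ≤ Cc * (1 + LL j) * YG (ATX N D.X) D.p D.ν E (Fz z)
          (eT (D.us (j + 1)) (D.Ws (j + 1)) τ) (wT (D.Ws (j + 1)) τ)) :
    ∑ z, AvG D.p D.ν E (st D (i + 1)) (fun _ W => H z W) ≤
      ∑ z, AvG D.p D.ν E (st D (j0 + 1)) (fun _ W => H z W) +
      ∑ j ∈ Finset.Ico j0 i, Cc * (1 + LL j) * ((ηc j + 2 * ηb j) *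
        (23 * (Λf ^ 2 * D.X.card) * Real.exp Bc)) * Real.log (1 / D.t (j + 1)) := by
  refine chain h (fun e => ∑ z, AvG D.p D.ν E e (fun _ W => H z W)) hij hi
    fun j hj0 hji τ hτ => ?_
  choose d hd hd' using hfl j hj0 hji τ hτ
  refine ⟨∑ z, d z, HasDerivAt.fun_sum fun z _ => hd z, ?_⟩
  have hj : j ≤ D.I := by omega
  have ht := h.t_pos (j + 1) (by omega)
  have hs : Real.exp (-τ) ∈ Icc (D.t (j + 1)) 1 := by
    constructor
    · have h3 : -Real.log (1 / D.t (j + 1)) ≤ -τ := neg_le_neg hτ.2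
      rw [one_div, Real.log_inv, neg_neg] at h3
      calc D.t (j + 1) = Real.exp (Real.log (D.t (j + 1))) := (Real.exp_log ht).symm
        _ ≤ Real.exp (-τ) := Real.exp_le_exp.2 h3
    · exact Real.exp_le_one_iff.2 (by linarith [hτ.1])
  have h1 : ∑ z, d z ≤ Cc * (1 + LL j) * YG (ATX N D.X) D.p D.ν E
      (fun q : Z × κ => Fz q.1 q.2) (eT (D.us (j + 1)) (D.Ws (j + 1)) τ)
      (wT (D.Ws (j + 1)) τ) := by
    rw [← YG_sum, Finset.mul_sum]
    exact Finset.sum_le_sum fun z _ => hd' z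
  have h2 := h.YG_log (fun q : Z × κ => Fz q.1 q.2) E hj (hηc j hj) (hηb j hj)
    (show 0 ≤ Λf ^ 2 * (D.X.card : ℝ) by positivity) hτ.1 (HC j hj _ hs) (HB j hj _ hs)
  have h3 := h.state_le_const hF (E := E) hηc hηb hC0 hC
    (fun j hj s hs => HC j hj s (Ioo_subset_Icc_self hs))
    (fun j hj s hs => HB j hj s (Ioo_subset_Icc_self hs)) hB hj hτ
  have h4 : 0 ≤ ηc j + 2 * ηb j := by
    have := hηc j hj
    have := hηb j hj
    positivity
  have h5 := h2.trans (mul_le_mul_of_nonneg_left h3 h4)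
  have h6 : 0 ≤ Cc * (1 + LL j) := by
    have := hLL j
    positivity
  exact h1.trans (mul_le_mul_of_nonneg_left h5 h6)

end v4

end P365T2.H908
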