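import Vale.Agent.P365.T2.H908.Chain
import Vale.Agent.P365.T2.H536.Start2
import Vale.Agent.P365.T2.H784.Q0

/-!
# P365-T2, X-KJSTAR (helper908): the block families in vector form

`FF z ρ` = the six functions of the block `(z, ρ)`; `∑ q, En (FF z ρ q) = PhB (fB z ρ)`;
all blocks of one scale together are Lipschitz with constant `14`.
-/

set_option linter.all false

namespace P365T2.H908

open P365L P365O P365T1 P365L.TL Matrix Complex MeasureTheory Filter Topology Set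
open Vale.Agent.P365.J376
open scoped ComplexConjugate ENNReal

variable {N : ℕ} [NeZero N]

/-- the six functions of a block -/
noncomputable def FF (ρ : ℕ) (z : Tor N) (q : Fin 3 × Fin 2) : Tor N → ℝ :=
  H536.Ff (H784.fB z ρ q.1) q.2

theorem sum_FF (A : Matrix (Tor N) (Tor N) ℝ) (W : Tor N → ℂ) (ρ : ℕ) (z : Tor N) :
    ∑ q : Fin 3 × Fin 2, En A W (FF ρ z q) = H784.PhB A W (H784.fB z ρ) := by
  have h1 : ∑ q : Fin 3 × Fin 2, En A W (FF ρ z q) =
      ∑ k : Fin 3, ∑ m : Fin 2, En A W (FF ρ z (k, m)) :=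
    Fintype.sum_prod_type (f := fun q : Fin 3 × Fin 2 => En A W (FF ρ z q))
  have h2 : ∀ k : Fin 3, ∑ m : Fin 2, En A W (FF ρ z (k, m)) = PhE A W (H784.fB z ρ k) :=
    fun k => H536.sum_En_Ff (A := A) W (H784.fB z ρ k)
  rw [h1, Finset.sum_congr rfl fun k _ => h2 k]
  rfl

theorem EnC_FF (A : Matrix (Tor N) (Tor N) ℝ) (W : Tor N → ℂ) (ρ : ℕ) (z : Tor N) :
    EnC A (fun _ => 1) (FF ρ z) W = H784.PhB A W (H784.fB z ρ) := by
  rw [← sum_FF]
  unfold EnC
  exact Finset.sum_congr rfl fun q _ => one_mul _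

theorem VecLip_FF {ρ : ℕ} (hρ : 0 < ρ) :
    VecLip (fun q : Tor N × (Fin 3 × Fin 2) => FF ρ q.1 q.2) 14 := by
  intro x y
  have h1 : ∀ (z : Tor N) (k : Fin 3), ∑ m : Fin 2, (FF ρ z (k, m) x - FF ρ z (k, m) y) ^ 2 ≤
      8 * (H784.fB z ρ k x - H784.fB z ρ k y) ^ 2 := by
    intro z k
    rw [Fin.sum_univ_two]
    simp only [FF, H536.Ff, Matrix.cons_val_zero, Matrix.cons_val_one]
    have a0 := H784.fB_nonneg z ρ k x
    have a1 := H784.fB_le_one z ρ k x
    have b0 := H784.fB_nonneg z ρ k y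
    have b1 := H784.fB_le_one z ρ k y
    set a := H784.fB z ρ k x
    set b := H784.fB z ρ k y
    have h2 : (a ^ 2 - b ^ 2) ^ 2 = (a + b) ^ 2 * (a - b) ^ 2 := by ring
    have h3 : (a + b) ^ 2 ≤ 4 := by nlinarith
    rw [h2]
    nlinarith [mul_le_mul_of_nonneg_right h3 (sq_nonneg (a - b))]
  rw [Fintype.sum_prod_type]
  have h0 : ∀ z : Tor N, ∑ q : Fin 3 × Fin 2, (FF ρ z q x - FF ρ z q y) ^ 2 =
      ∑ k : Fin 3, ∑ m : Fin 2, (FF ρ z (k, m) x - FF ρ z (k, m) y) ^ 2 := fun z =>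
    Fintype.sum_prod_type _
  rw [Finset.sum_congr rfl fun z _ => h0 z]
  calc ∑ z : Tor N, ∑ k : Fin 3, ∑ m : Fin 2, (FF ρ z (k, m) x - FF ρ z (k, m) y) ^ 2
      ≤ ∑ z : Tor N, ∑ k : Fin 3, 8 * (H784.fB z ρ k x - H784.fB z ρ k y) ^ 2 :=
        Finset.sum_le_sum fun z _ => Finset.sum_le_sum fun k _ => h1 z k
    _ = 8 * ∑ z : Tor N, ∑ k : Fin 3, (H784.fB z ρ k x - H784.fB z ρ k y) ^ 2 := by
        simp only [Finset.mul_sum]
    _ ≤ 8 * (24 * (nrm (x - y) : ℝ) ^ 2) :=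
        mul_le_mul_of_nonneg_left (H784.fB_sum hρ x y) (by norm_num)
    _ ≤ 14 ^ 2 * (nrm (x - y) : ℝ) ^ 2 := by
        nlinarith [sq_nonneg (nrm (x - y) : ℝ)]

theorem psi_le_Th {A C F : ℝ} (hA : 0 < A) (hC : 0 ≤ C) (hF : 0 ≤ F) :
    H211.psi A F ≤ H211.Th A C F / A := by
  rw [le_div_iff₀ hA]
  unfold H211.Th
  nlinarith [mul_nonneg hC hF]

theorem measurable_psi (A : ℝ) : Measurable (H211.psi A) := by
  unfold H211.psi
  exact (measurable_id.pow_const 2).div (measurable_id.const_add A)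

/-- `Av psi ≤ Av Th / A` -/
theorem AvG_psi_le {A' : Matrix (Tor N) (Tor N) ℝ} (hA : A'.IsSymm) {Λ : Type*} [Fintype Λ]
    {p : Λ → ℝ} {ν : Λ → Measure ℝ} {E : ℝ} [∀ k, IsProbabilityMeasure (ν k)]
    (hp : ∀ k, 0 ≤ p k) {e : (Tor N → Λ) → Tor N → ℝ} (he : ∀ l x, 0 < e l x) (ρ : ℕ)
    (z : Tor N) {A C : ℝ} (hA0 : 0 < A) (hC : 0 ≤ C) :
    AvG p ν E e (fun _ V => H211.psi A (H784.PhB A' V (H784.fB z ρ))) ≤
      AvG p ν E e (fun _ V => H211.Th A C (H784.PhB A' V (H784.fB z ρ))) / A := by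
  have e1 : AvG p ν E e (fun _ V => H211.Th A C (H784.PhB A' V (H784.fB z ρ))) / A =
      AvG p ν E e (fun _ V => H211.Th A C (H784.PhB A' V (H784.fB z ρ)) / A) := by
    unfold AvG Ex
    rw [Finset.sum_div]
    refine Finset.sum_congr rfl fun l _ => ?_
    rw [integral_div, mul_div_assoc]
  rw [e1]
  simp only [← EnC_FF]
  refine AvG_mono hp (fun l => ?_) (fun l => ?_) fun l v => ?_
  · exact integrable_EnC hA _ (fun _ => zero_le_one) (he l) (measurable_psi A)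
      (B := fun R => R) fun R F h0 h1 => by
        rw [abs_of_nonneg (H211.psi_nonneg hA0 h0)]
        refine le_trans ?_ h1
        unfold H211.psi
        rw [div_le_iff₀ (by positivity)]
        nlinarith [mul_nonneg h0 hA0.le]
  · exact (integrable_EnC_Th hA _ (fun _ => zero_le_one) (he l) hA0 hC).div_const A
  · exact psi_le_Th hA0 hC (EnC_nonneg (fun _ => zero_le_one) fun x => (he l x).le)

end P365T2.H908
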