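import Vale.Agent.P365.T2.H908.Blk

/-!
# P365-T2, X-KJSTAR (helper908): the block functionals at the beginning of the stage `i + 1`

`q_le` : `∑ z, Av psi T (PhB)` at the beginning of the stage `i + 1` is at most
`(K2 / T + (1 + CT) CE · tail) N²`, where `K2 N²` bounds `∑ z, Av Th T (PhB)` at the beginning of the
stage `j0 + 1` and `tail` is the sum of the law errors of the stages `j0 + 1, …, i`.
-/

set_option linter.all false

namespace P365T2.H908

open P365L P365O P365T1 P365L.TL Matrix Complex MeasureTheory Filter Topology Set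
open Vale.Agent.P365.J376
open scoped ComplexConjugate ENNReal

variable {N : ℕ} [NeZero N] {D : V4 N} {μ : Measure ℝ}

/-- the constant of `cau2_nuS` -/
noncomputable def cauS (a l E : ℝ) : ℝ := 2 * (1 + E ^ 2) * (5500 * ((1 + 2 * a ^ 2) / l ^ 2 + 2))

theorem cauS_nonneg (a l E : ℝ) : 0 ≤ cauS a l E := by
  unfold cauS
  positivity

/-- **the block functionals at the beginning of the stage `i + 1`** -/
theorem q_le (h : D.Ok μ) (hX : D.X = Finset.univ) {E a l R₀ : ℝ} (hl : 0 < l) (hla : l < a)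
    (hR₀ : ∀ k, D.ν k (Icc (-R₀) R₀)ᶜ = 0) (hmov : ∀ k, D.mov k → D.ν k = nuS a l)
    {q : ℕ → ℝ} (hq : ∀ j, 0 ≤ q j)
    (HC : ∀ j ≤ D.I, ∀ s ∈ Icc (D.t (j + 1)) 1, HC4 D.toV3 N D.X E (D.prof j s s) j (q j))
    (HB : ∀ j ≤ D.I, ∀ s ∈ Icc (D.t (j + 1)) 1, ∀ (κ : Type) [Fintype κ] (F : κ → Tor N → ℝ)
      (Λf : ℝ), 0 ≤ Λf → VecLip F Λf →
        HBe D.toV3 N D.X F E (D.prof j s s) j s (q j) (Λf ^ 2 * (N : ℝ) ^ 2))
    {Bc : ℝ} (hB : D.acc (cauS a l E) q q (D.I + 1) ≤ Bc) {T K2 : ℝ} (hT : 1 ≤ T) {ρ : ℕ}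
    (hρ : 0 < ρ) {j0 i : ℕ} (hij : j0 ≤ i) (hi : i ≤ D.I)
    (hK2 : ∑ z : Tor N, AvG D.p D.ν E (st D (j0 + 1))
      (fun _ V => H211.Th T (H79.CT (Fin 3)) (H784.PhB (AT N) V (H784.fB z ρ))) ≤
        K2 * (N : ℝ) ^ 2) :
    ∑ z : Tor N, AvG D.p D.ν E (st D (i + 1))
      (fun _ V => H211.psi T (H784.PhB (AT N) V (H784.fB z ρ))) ≤
      (K2 / T + CE (Fin 3) E a l * (1 + H79.CT (Fin 3)) *
        ∑ j ∈ Finset.Ico j0 i, 3 * q j * (23 * 14 ^ 2 * Real.exp Bc) *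
          Real.log (1 / D.t (j + 1))) * (N : ℝ) ^ 2 := by
  haveI := h.prob
  have hcard : (D.X.card : ℝ) = (N : ℝ) ^ 2 := by
    rw [hX, Finset.card_univ, card_Tor_nat]
    push_cast
    ring
  have hAT : ATX N D.X = AT N := by
    rw [hX]
    exact ATX_univ N
  have hT0 : 0 < T := by linarith
  have hCT := H79.CT_nonneg (Fin 3)
  have hCE := CE_nonneg (Fin 3) E hl hla
  set CT := H79.CT (Fin 3) with hCTd
  set Ce := CE (Fin 3) E a l with hCed
  -- psi against Th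
  have h1 : ∑ z : Tor N, AvG D.p D.ν E (st D (i + 1))
      (fun _ V => H211.psi T (H784.PhB (AT N) V (H784.fB z ρ))) ≤
      (∑ z : Tor N, AvG D.p D.ν E (st D (i + 1))
        (fun _ V => H211.Th T CT (H784.PhB (AT N) V (H784.fB z ρ)))) / T := by
    rw [Finset.sum_div]
    exact Finset.sum_le_sum fun z _ => AvG_psi_le (AT_symm N) h.p_nonneg
      (st_pos h (by omega)) ρ z hT0 hCT
  -- transport
  have h2 := transport h (Fz := fun z : Tor N => FF ρ z)
    (H := fun z V => H211.Th T CT (H784.PhB (AT N) V (H784.fB z ρ))) (VecLip_FF hρ)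
    (E := E) (C := cauS a l E) (Cc := Ce * (T + CT)) (Bc := Bc) (ηc := q) (ηb := q)
    (LL := fun _ => 0) (fun j _ => hq j) (fun j _ => hq j) (cauS_nonneg a l E)
    (fun k hk => by
      rw [hmov k hk]
      exact cau2_nuS hl hla E) HC
    (fun j hj s hs => by
      rw [hcard]
      exact HB j hj s hs _ _ _ (by norm_num) (VecLip_FF hρ)) hB (by positivity)
    (fun _ => le_rfl) hij hi (fun j hj0 hji τ hτ z => by
      obtain ⟨d, hd, hd'⟩ := blk_flow (E := E) (AT_symm N) h.p_nonneg hR₀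
        (u := D.us (j + 1)) (w := D.Ws (j + 1))
        (fun l x => h.b_pos.trans_le (h.us_ge (j + 1) l x))
        (fun l x => h.toOk.Ws_nonneg (by omega) l x) hl hla
        (fun L x hx => hmov _ (by
          by_contra hcon
          exact hx (h.toOk.Ws_of_not_mov (by omega) hcon))) ρ z hT τ
      refine ⟨d, hd, ?_⟩
      rw [add_zero, mul_one, hAT]
      exact hd')
  rw [hcard] at h2
  refine h1.trans ?_
  rw [div_le_iff₀ hT0]
  refine (h2.trans (add_le_add hK2 le_rfl)).trans ?_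
  have hlog : ∀ j ∈ Finset.Ico j0 i, 0 ≤ Real.log (1 / D.t (j + 1)) := fun j hj => by
    rw [Finset.mem_Ico] at hj
    exact Real.log_nonneg (by
      rw [le_div_iff₀ (h.t_pos (j + 1) (by omega))]
      linarith [h.t_le (j + 1) (by omega)])
  have h3 : ∑ j ∈ Finset.Ico j0 i, Ce * (T + CT) * (1 + 0) * ((q j + 2 * q j) *
        (23 * (14 ^ 2 * (N : ℝ) ^ 2) * Real.exp Bc)) * Real.log (1 / D.t (j + 1)) =
      Ce * (T + CT) * ((∑ j ∈ Finset.Ico j0 i, 3 * q j * (23 * 14 ^ 2 * Real.exp Bc) *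
          Real.log (1 / D.t (j + 1))) * (N : ℝ) ^ 2) := by
    rw [Finset.sum_mul, Finset.mul_sum]
    refine Finset.sum_congr rfl fun j _ => ?_
    ring
  rw [h3]
  obtain ⟨S, hS⟩ : ∃ S, ∑ j ∈ Finset.Ico j0 i, 3 * q j * (23 * 14 ^ 2 * Real.exp Bc) *
      Real.log (1 / D.t (j + 1)) = S := ⟨_, rfl⟩
  have hS0 : 0 ≤ S := by
    rw [← hS]
    refine Finset.sum_nonneg fun j hj => ?_
    have h5 := hlog j hj
    have h6 := hq j
    positivity
  rw [hS]
  have h4 : Ce * (T + CT) ≤ Ce * (1 + CT) * T := by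
    have h5 : T + CT ≤ (1 + CT) * T := by nlinarith
    calc Ce * (T + CT) ≤ Ce * ((1 + CT) * T) := mul_le_mul_of_nonneg_left h5 hCE
      _ = _ := by ring
  have h7 : K2 * (N : ℝ) ^ 2 = K2 / T * (N : ℝ) ^ 2 * T := by
    field_simp
  have h8 := mul_le_mul_of_nonneg_right h4 (show 0 ≤ S * (N : ℝ) ^ 2 by positivity)
  rw [h7]
  calc K2 / T * (N : ℝ) ^ 2 * T + Ce * (T + CT) * (S * (N : ℝ) ^ 2)
      ≤ K2 / T * (N : ℝ) ^ 2 * T + Ce * (1 + CT) * T * (S * (N : ℝ) ^ 2) :=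
        add_le_add le_rfl h8
    _ = _ := by ring

end P365T2.H908
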